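import Vale.Agent.P095.MathlibUsed

/-! Simplicity and nuclearity of C*-algebras which need not be unital, for the final statements. -/

namespace Vale.Agent.P095R

universe u

/-- `A` is a simple C*-algebra: it is not zero, and `0` and `A` are its only closed two-sided
ideals. -/
structure IsSimpleAlg (A : Type u) [NonUnitalCStarAlgebra A] : Prop where
  nonzero : ∃ a : A, a ≠ 0
  ideal : ∀ J : Submodule ℂ A, IsClosed (J : Set A) →
    (∀ x ∈ J, ∀ a : A, a * x ∈ J ∧ x * a ∈ J) → J = ⊥ ∨ J = ⊤

/-- `f` is completely positive: for every `n` and every `X ∈ M_n(A)` the matrix with entries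
`f ((X^* X)_{ij})` is positive, that is, of the form `Y^* Y`. -/
def IsCPMap {A B : Type*} [NonUnitalRing A] [StarRing A] [Module ℂ A] [NonUnitalRing B]
    [StarRing B] [Module ℂ B] (f : A →ₗ[ℂ] B) : Prop :=
  ∀ (n : ℕ) (X : Matrix (Fin n) (Fin n) A), ∃ Y : Matrix (Fin n) (Fin n) B,
    ∀ i j, f ((X.conjTranspose * X) i j) = (Y.conjTranspose * Y) i j

/-- `A` is nuclear: it has the completely positive approximation property, that is, the identity
of `A` is approximated in point norm by compositions of completely positive maps through matrix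
algebras. -/
def IsNuclearAlg (A : Type u) [NonUnitalCStarAlgebra A] : Prop :=
  ∀ (F : Finset A) (ε : ℝ), 0 < ε → ∃ (k : ℕ) (φ : A →ₗ[ℂ] Matrix (Fin k) (Fin k) ℂ)
    (ψ : Matrix (Fin k) (Fin k) ℂ →ₗ[ℂ] A), IsCPMap φ ∧ IsCPMap ψ ∧ ∀ a ∈ F, ‖ψ (φ a) - a‖ < ε

end Vale.Agent.P095R
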